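import Mathlib
import Vale.Agent.Lib.P344.PowOdd

/-!
P344: lower bounds of the form `5 n - (lower order terms)` for the number of gates of a linear
circuit computing the length-`n` discrete Fourier transform exactly.

* For every `n ≥ 2`, every unit `u` modulo `n` and every set `J` of residues modulo `n` that
  meets every orbit of the multiplication by `u`: at least
  `5 n - 2 |J| τ(ord u) - 2 τ(n) - Ω(n) - 3` gates.
* For every prime power `n = p ^ k`, `k ≥ 1`: at least `5 n - 2 k² τ(p - 1) - 3 k - 7` gates.

Here `τ` is the number of divisors and `Ω` the number of prime factors with multiplicity.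
-/

namespace Vale.Agent.Results.P344.FiveNGeneral

open Vale.Agent.Lib.P344

theorem result :
    (∀ n : ℕ, 2 ≤ n → ∀ (u : (ZMod n)ˣ) (J : Finset (ZMod n)),
      (∀ x : ZMod n, ∃ j ∈ J, ∃ t : ℕ, x = (u : ZMod n) ^ t * j) →
      ∀ C : List Gate, ComputesDFT n C →
        5 * n ≤ C.length + 2 * (J.card * (Nat.divisors (orderOf u)).card) +
          2 * (Nat.divisors n).card + ArithmeticFunction.cardFactors n + 3) ∧
    (∀ p k : ℕ, p.Prime → 1 ≤ k → ∀ C : List Gate, ComputesDFT (p ^ k) C →
        5 * p ^ k ≤ C.length + 2 * k ^ 2 * (Nat.divisors (p - 1)).card + 3 * k + 7) :=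
  ⟨fun n hn u J hJ C hC => gen_bound n hn u J hJ C hC,
    fun p k hp hk C hC => prime_pow_bound p k hp hk C hC⟩

end Vale.Agent.Results.P344.FiveNGeneral
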