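import Mathlib
import Vale.Agent.Lib.P344.MulPrime

/-!
P344: for a prime `p`, every linear circuit computing the length-`p` discrete Fourier transform
exactly has at least `5 p - 2 τ(p - 1) - 6` gates, where `τ(p - 1)` is the number of divisors
of `p - 1`.
-/

namespace Vale.Agent.Results.P344.FiveNPrime

open Vale.Agent.Lib.P344

theorem result (p : ℕ) (hp : p.Prime) (C : List Gate) (hC : ComputesDFT p C) :
    5 * p ≤ C.length + 2 * (Nat.divisors (p - 1)).card + 6 :=
  prime_bound p hp C hC

end Vale.Agent.Results.P344.FiveNPrime
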