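import Mathlib
import Vale.Agent.Lib.P344.Main

/-!
P344: every linear circuit computing the length-`n` discrete Fourier transform exactly has at
least `4 n - τ(n) - Ω(n) - 3` gates, where `τ(n)` is the number of divisors of `n` and `Ω(n)`
is the number of prime factors of `n` counted with multiplicity.
-/

namespace Vale.Agent.Results.P344.FourNBound

open Vale.Agent.Lib.P344

theorem result (n : ℕ) (hn : 2 ≤ n) (C : List Gate) (hC : ComputesDFT n C) :
    4 * n ≤ C.length + (Nat.divisors n).card + ArithmeticFunction.cardFactors n + 3 :=
  strong_bound n hn C hC

end Vale.Agent.Results.P344.FourNBound
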