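import Vale.Agent.Lib.P344.H27.Main

open Vale.Agent.Lib.P344.H27 in
/-- Weighted Morgenstern-type lower bound for linear circuits computing the discrete Fourier
transform `F_n`, allowing unrestricted scalar gates and an arbitrary ring endomorphism `σ` of `ℂ`
applied to the multipliers: with `A` the number of additions and subtractions and `m` the number
of scalar gates whose multiplier `l` has `‖σ l‖ > c`,
`(n / 2 - m) * log₂ n ≤ A + ∑ log₂ (max 1 ‖σ l‖)`, the sum over scalar gates with `‖σ l‖ ≤ c`. -/
theorem Vale.Agent.Results.P344.H27_HelpGates.result (n : ℕ) (hn : n ≠ 0) (gs : List Gate)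
    (h : ComputesDFT n gs) (σ : ℂ →+* ℂ) (c : ℝ) :
    ((n : ℝ) / 2 - (gs.map (big σ c)).sum) * Real.logb 2 n ≤ (gs.map (cost σ c)).sum :=
  main_bound n hn gs h σ c
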