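import Mathlib
import Vale.Agent.Lib.P344.Basic

/-!
P344: every linear circuit computing the length-`n` discrete Fourier transform exactly has at
least `2 n - τ(n)` gates, where `τ(n)` is the number of divisors of `n`.
-/

namespace Vale.Agent.Results.P344.TwoNBound

open Vale.Agent.Lib.P344

theorem result (n : ℕ) (hn : 2 ≤ n) (C : List Gate) (hC : ComputesDFT n C) :
    2 * n ≤ C.length + (Nat.divisors n).card :=
  weak_bound n hn C hC

end Vale.Agent.Results.P344.TwoNBound
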